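import Mathlib

/-!
Drawings of `K_{m,n}` with one class on a vertical line and `x`-monotone edges have at least
Zarankiewicz's number of crossings.
-/

namespace Vale.Agent.P040

open Finset

/-- The pairs with equal colour, one orientation each, are at least as many as for a balanced
two-colouring. -/
theorem pairs {N : ℕ} (r : Fin N → Fin N → Prop) [DecidableRel r]
    (hirr : ∀ x, ¬ r x x) (hasym : ∀ x y, r x y → ¬ r y x) (htot : ∀ x y, x ≠ y → r x y ∨ r y x)
    (f : Fin N → Bool) :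
    N / 2 * ((N - 1) / 2) ≤
      (univ.filter fun p : Fin N × Fin N => r p.1 p.2 ∧ f p.1 = f p.2).card := by
  classical
  set P := univ.filter fun p : Fin N × Fin N => r p.1 p.2 ∧ f p.1 = f p.2 with hP
  set S := univ.filter fun x : Fin N => f x = true
  set T := univ.filter fun x : Fin N => ¬ f x = true
  have hST : S.card + T.card = N := by
    rw [card_filter_add_card_filter_not, card_univ, Fintype.card_fin]
  have hsplit : S ×ˢ S ∪ T ×ˢ T = P ∪ P.image Prod.swap ∪ univ.image fun x => (x, x) := by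
    ext ⟨x, y⟩
    simp only [S, T, hP, mem_union, mem_product, mem_filter, mem_univ, true_and, mem_image,
      Prod.mk.injEq, Prod.exists, Prod.swap_prod_mk]
    constructor
    · intro h
      have he : f x = f y := by
        rcases h with ⟨h1, h2⟩ | ⟨h1, h2⟩
        · rw [h1, h2]
        · rw [Bool.eq_false_iff.2 h1, Bool.eq_false_iff.2 h2]
      by_cases hxy : x = y
      · exact Or.inr ⟨x, rfl, hxy⟩
      rcases htot x y hxy with hr | hr
      · exact Or.inl (Or.inl ⟨hr, he⟩)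
      · exact Or.inl (Or.inr ⟨y, x, ⟨hr, he.symm⟩, rfl, rfl⟩)
    · intro h
      have he : f x = f y := by
        rcases h with (h | ⟨a, b, h, rfl, rfl⟩) | ⟨a, rfl, rfl⟩
        · exact h.2
        · exact h.2.symm
        · rfl
      by_cases hx : f x = true
      · exact Or.inl ⟨hx, he ▸ hx⟩
      · exact Or.inr ⟨hx, he ▸ hx⟩
  have h1 : (S ×ˢ S ∪ T ×ˢ T).card = S.card * S.card + T.card * T.card := by
    rw [card_union_of_disjoint, card_product, card_product]
    refine disjoint_left.2 fun p hp hq => ?_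
    simp only [S, T, mem_product, mem_filter] at hp hq
    exact hq.1.2 hp.1.2
  have h2 : (P ∪ P.image Prod.swap ∪ univ.image fun x => (x, x)).card ≤ 2 * P.card + N := by
    refine (card_union_le _ _).trans (add_le_add ((card_union_le _ _).trans ?_) ?_)
    · have := card_image_le (s := P) (f := Prod.swap)
      omega
    · exact card_image_le.trans (by simp)
  rw [hsplit] at h1
  have hd : 4 * (N / 2 * ((N - 1) / 2)) + 2 * N ≤ N * N + 1 := by
    rcases Nat.even_or_odd' N with ⟨j, rfl | rfl⟩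
    · rw [show 2 * j / 2 = j by omega, show (2 * j - 1) / 2 = j - 1 by omega]
      cases j with
      | zero => simp
      | succ i => simp only [Nat.add_sub_cancel]; nlinarith
    · rw [show (2 * j + 1) / 2 = j by omega, show (2 * j + 1 - 1) / 2 = j by omega]
      nlinarith
  have hgen : ∀ c d : ℕ, (c + d) * (c + d) ≤ 2 * (c * c + d * d) := fun c d => by
    nlinarith [sq_nonneg ((c : ℤ) - d)]
  have hsq := hgen S.card T.card
  rw [hST] at hsq
  omega

/-- Strict betweenness from weak betweenness. -/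
theorem mem_uIoo_zero {x u : ℝ} (h : x ∈ Set.uIcc 0 u) (h0 : x ≠ 0) (hu : x ≠ u) :
    x ∈ Set.uIoo 0 u := by
  rcases le_total 0 u with hle | hle
  · rw [Set.uIcc_of_le hle] at h
    rw [Set.uIoo_of_le hle]
    exact ⟨lt_of_le_of_ne h.1 (Ne.symm h0), lt_of_le_of_ne h.2 hu⟩
  · rw [Set.uIcc_of_ge hle] at h
    rw [Set.uIoo_of_ge hle]
    exact ⟨lt_of_le_of_ne h.1 (Ne.symm hu), lt_of_le_of_ne h.2 h0⟩

/-- Two graphs in opposite vertical order at `0` and at `u` meet in between. -/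
theorem meet {f g : ℝ → ℝ} {u : ℝ} (hf : ContinuousOn f (Set.uIcc 0 u))
    (hg : ContinuousOn g (Set.uIcc 0 u)) (h0 : f 0 < g 0) (hu : g u < f u) :
    ∃ x ∈ Set.uIoo 0 u, f x = g x := by
  obtain ⟨x, hx, he⟩ := intermediate_value_uIcc (f := fun x => f x - g x) (hf.sub hg)
    (show (0 : ℝ) ∈ Set.uIcc (f 0 - g 0) (f u - g u) from
      Set.mem_uIcc.2 (Or.inl ⟨by linarith, by linarith⟩))
  simp only [sub_eq_zero] at he
  exact ⟨x, mem_uIoo_zero hx (fun h => by rw [h] at he; exact h0.ne he)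
    (fun h => by rw [h] at he; exact hu.ne' he), he⟩

/-- The `x`-range of the nearer vertex lies in that of the farther one on the same side. -/
theorem uIoo_zero_subset {u u' : ℝ} (hpos : 0 < u * u') (hle : |u'| ≤ |u|) :
    Set.uIoo 0 u' ⊆ Set.uIoo 0 u := by
  rcases pos_and_pos_or_neg_and_neg_of_mul_pos hpos with ⟨h, h'⟩ | ⟨h, h'⟩
  · rw [Set.uIoo_of_le h.le, Set.uIoo_of_le h'.le]
    rw [abs_of_pos h, abs_of_pos h'] at hle
    exact Set.Ioo_subset_Ioo_right hle
  · rw [Set.uIoo_of_ge h.le, Set.uIoo_of_ge h'.le]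
    rw [abs_of_neg h, abs_of_neg h'] at hle
    exact Set.Ioo_subset_Ioo_left (by linarith)

/-- The open edge given by the graph of `f` strictly between `0` and `u`. -/
def arc (u : ℝ) (f : ℝ → ℝ) : Set (ℝ × ℝ) := (fun x => (x, f x)) '' Set.uIoo 0 u

theorem zarankiewicz {m n : ℕ} (a : Fin m → ℝ) (b : Fin n → ℝ × ℝ)
    (f : Fin m → Fin n → ℝ → ℝ) (ha : StrictMono a) (hb : Function.Injective b)
    (hoff : ∀ j, (b j).1 ≠ 0)
    (hf : ∀ i j, ContinuousOn (f i j) (Set.uIcc 0 (b j).1))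
    (h0 : ∀ i j, f i j 0 = a i) (h1 : ∀ i j, f i j (b j).1 = (b j).2)
    (hvalid : ∀ i j j', b j' ∉ arc (b j).1 (f i j)) :
    m / 2 * ((m - 1) / 2) * (n / 2 * ((n - 1) / 2)) ≤
      {q : (Fin m × Fin m) × Fin n × Fin n | q.1.1 < q.1.2 ∧ q.2.1 ≠ q.2.2 ∧
        (arc (b q.2.1).1 (f q.1.1 q.2.1) ∩ arc (b q.2.2).1 (f q.1.2 q.2.2)).Nonempty}.ncard := by
  classical
  let r : Fin n → Fin n → Prop := fun j j' =>
    |(b j').1| < |(b j).1| ∨ |(b j').1| = |(b j).1| ∧ j' < j
  have hasym : ∀ x y, r x y → ¬ r y x := fun x y h h' => by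
    rcases h with h | ⟨h, hl⟩ <;> rcases h' with h' | ⟨h', hl'⟩
    · exact absurd h' h.asymm
    · exact h.ne h'.symm
    · exact h'.ne h.symm
    · exact absurd hl' hl.asymm
  let Pn := univ.filter fun p : Fin n × Fin n =>
    r p.1 p.2 ∧ decide (0 < (b p.1).1) = decide (0 < (b p.2).1)
  have hPn : n / 2 * ((n - 1) / 2) ≤ Pn.card := pairs r (fun x h => by simp [r] at h) hasym
    (fun x y hxy => by
      rcases lt_trichotomy |(b y).1| |(b x).1| with h | h | h
      · exact Or.inl (Or.inl h)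
      · rcases lt_or_gt_of_ne hxy with hl | hl
        · exact Or.inr (Or.inr ⟨h.symm, hl⟩)
        · exact Or.inl (Or.inr ⟨h, hl⟩)
      · exact Or.inr (Or.inl h))
    fun j => decide (0 < (b j).1)
  let col : Fin n × Fin n → Fin m → Bool := fun p i =>
    decide (f i p.1 (b p.2).1 < (b p.2).2)
  let Q : Fin n × Fin n → Finset (Fin m × Fin m) := fun p =>
    univ.filter fun z => z.1 < z.2 ∧ col p z.1 = col p z.2
  have hQ : ∀ p, m / 2 * ((m - 1) / 2) ≤ (Q p).card := fun p =>
    pairs (fun x y : Fin m => x < y) (fun x => lt_irrefl x) (fun x y h => h.asymm)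
      (fun x y h => lt_or_gt_of_ne h) (col p)
  have hcard : m / 2 * ((m - 1) / 2) * (n / 2 * ((n - 1) / 2)) ≤ (Pn.sigma Q).card := by
    rw [card_sigma]
    calc m / 2 * ((m - 1) / 2) * (n / 2 * ((n - 1) / 2))
        ≤ m / 2 * ((m - 1) / 2) * Pn.card := Nat.mul_le_mul_left _ hPn
      _ = ∑ _p ∈ Pn, m / 2 * ((m - 1) / 2) := by rw [sum_const, smul_eq_mul, mul_comm]
      _ ≤ _ := sum_le_sum fun p _ => hQ p
  refine hcard.trans ?_
  rw [← Set.ncard_coe_finset]
  refine Set.ncard_le_ncard_of_injOn (fun s =>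
    (s.2, if col s.1 s.2.1 then (s.1.2, s.1.1) else s.1)) ?_ ?_ (Set.toFinite _)
  · rintro ⟨⟨j, j'⟩, i, i'⟩ hs
    simp only [mem_coe, mem_sigma, Pn, Q, mem_filter, mem_univ, true_and] at hs
    obtain ⟨⟨hr, hsame⟩, hlt, hcol⟩ := hs
    have hjj : j ≠ j' := fun h => by subst h; simp [r] at hr
    have hle : |(b j').1| ≤ |(b j).1| := hr.elim le_of_lt fun h => h.1.le
    have hpos : 0 < (b j).1 * (b j').1 := by
      rw [decide_eq_decide] at hsame
      rcases lt_or_gt_of_ne (hoff j) with h | h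
      · exact mul_pos_of_neg_of_neg h (lt_of_le_of_ne
          (not_lt.1 fun h' => lt_irrefl _ ((hsame.2 h').trans h)) (hoff j'))
      · exact mul_pos h (hsame.1 h)
    have hsub := uIoo_zero_subset hpos hle
    have hmem : (b j').1 ∈ Set.uIcc 0 (b j).1 := by
      rcases pos_and_pos_or_neg_and_neg_of_mul_pos hpos with ⟨h, h'⟩ | ⟨h, h'⟩
      · rw [abs_of_pos h, abs_of_pos h'] at hle
        exact Set.mem_uIcc.2 (Or.inl ⟨h'.le, hle⟩)
      · rw [abs_of_neg h, abs_of_neg h'] at hle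
        exact Set.mem_uIcc.2 (Or.inr ⟨by linarith, h'.le⟩)
    have hcf : ∀ k, ContinuousOn (f k j) (Set.uIcc 0 (b j').1) := fun k =>
      (hf k j).mono (Set.uIcc_subset_uIcc Set.left_mem_uIcc hmem)
    have hne : ∀ k, f k j (b j').1 ≠ (b j').2 := fun k he => by
      by_cases hu : (b j').1 = (b j).1
      · exact hjj (hb (Prod.ext hu.symm (by rw [← he, hu, h1])))
      · exact hvalid k j j' ⟨(b j').1, mem_uIoo_zero hmem (hoff j') hu, Prod.ext rfl he⟩
    simp only [col, decide_eq_decide] at hcol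
    simp only [col, Set.mem_ofPred_eq, decide_eq_true_eq]
    refine ⟨hlt, ?_⟩
    split_ifs with h
    · obtain ⟨x, hx, he⟩ := meet (hf i j') (hcf i') (by rw [h0, h0]; exact ha hlt)
        (by rw [h1]; exact hcol.1 h)
      exact ⟨hjj.symm, (x, f i j' x), ⟨x, hx, rfl⟩, ⟨x, hsub hx, by rw [he]⟩⟩
    · have h' : ¬ f i' j (b j').1 < (b j').2 := fun h'' => h (hcol.2 h'')
      obtain ⟨x, hx, he⟩ := meet (hcf i) (hf i' j') (by rw [h0, h0]; exact ha hlt)
        (by rw [h1]; exact lt_of_le_of_ne (not_lt.1 h) (hne i).symm)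
      exact ⟨hjj, (x, f i j x), ⟨x, hsub hx, rfl⟩, ⟨x, hx, by rw [he]⟩⟩
  · rintro ⟨p, z⟩ hs ⟨p', z'⟩ hs' he
    simp only [mem_coe, mem_sigma, Pn, mem_filter, mem_univ, true_and] at hs hs'
    simp only [Prod.mk.injEq] at he
    obtain ⟨rfl, he⟩ := he
    obtain ⟨p1, p2⟩ := p
    obtain ⟨q1, q2⟩ := p'
    split_ifs at he <;> simp only [Prod.mk.injEq] at he <;> obtain ⟨rfl, rfl⟩ := he
    all_goals first
      | rfl
      | exact absurd hs'.1.1 (hasym _ _ hs.1.1)

end Vale.Agent.P040
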