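import Mathlib

/-!
Drawings of `K_{m,n}` with one class on a line crossed by no edge have at least Zarankiewicz's
number of crossings.
-/

namespace Vale.Agent.P040

open Finset

/-- The pairs with equal colour, one orientation each, are at least as many as for a balanced
two-colouring. -/
theorem pairs {N : ℕ} (r : Fin N → Fin N → Prop) [DecidableRel r]
    (hirr : ∀ x, ¬ r x x) (hasym : ∀ x y, r x y → ¬ r y x) (htot : ∀ x y, x ≠ y → r x y ∨ r y x)
    (f : Fin N → Bool) :
    N / 2 * ((N - 1) / 2) ≤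
      (univ.filter fun p : Fin N × Fin N => r p.1 p.2 ∧ f p.1 = f p.2).card := by
  classical
  set P := univ.filter fun p : Fin N × Fin N => r p.1 p.2 ∧ f p.1 = f p.2 with hP
  set S := univ.filter fun x : Fin N => f x = true
  set T := univ.filter fun x : Fin N => ¬ f x = true
  have hST : S.card + T.card = N := by
    rw [card_filter_add_card_filter_not, card_univ, Fintype.card_fin]
  have hsplit : S ×ˢ S ∪ T ×ˢ T = P ∪ P.image Prod.swap ∪ univ.image fun x => (x, x) := by
    ext ⟨x, y⟩
    simp only [S, T, hP, mem_union, mem_product, mem_filter, mem_univ, true_and, mem_image,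
      Prod.mk.injEq, Prod.exists, Prod.swap_prod_mk]
    constructor
    · intro h
      have he : f x = f y := by
        rcases h with ⟨h1, h2⟩ | ⟨h1, h2⟩
        · rw [h1, h2]
        · rw [Bool.eq_false_iff.2 h1, Bool.eq_false_iff.2 h2]
      by_cases hxy : x = y
      · exact Or.inr ⟨x, rfl, hxy⟩
      rcases htot x y hxy with hr | hr
      · exact Or.inl (Or.inl ⟨hr, he⟩)
      · exact Or.inl (Or.inr ⟨y, x, ⟨hr, he.symm⟩, rfl, rfl⟩)
    · intro h
      have he : f x = f y := by
        rcases h with (h | ⟨a, b, h, rfl, rfl⟩) | ⟨a, rfl, rfl⟩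
        · exact h.2
        · exact h.2.symm
        · rfl
      by_cases hx : f x = true
      · exact Or.inl ⟨hx, he ▸ hx⟩
      · exact Or.inr ⟨hx, he ▸ hx⟩
  have h1 : (S ×ˢ S ∪ T ×ˢ T).card = S.card * S.card + T.card * T.card := by
    rw [card_union_of_disjoint, card_product, card_product]
    refine disjoint_left.2 fun p hp hq => ?_
    simp only [S, T, mem_product, mem_filter] at hp hq
    exact hq.1.2 hp.1.2
  have h2 : (P ∪ P.image Prod.swap ∪ univ.image fun x => (x, x)).card ≤ 2 * P.card + N := by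
    refine (card_union_le _ _).trans (add_le_add ((card_union_le _ _).trans ?_) ?_)
    · have := card_image_le (s := P) (f := Prod.swap)
      omega
    · exact card_image_le.trans (by simp)
  rw [hsplit] at h1
  have hd : 4 * (N / 2 * ((N - 1) / 2)) + 2 * N ≤ N * N + 1 := by
    rcases Nat.even_or_odd' N with ⟨j, rfl | rfl⟩
    · rw [show 2 * j / 2 = j by omega, show (2 * j - 1) / 2 = j - 1 by omega]
      cases j with
      | zero => simp
      | succ i => simp only [Nat.add_sub_cancel]; nlinarith
    · rw [show (2 * j + 1) / 2 = j by omega, show (2 * j + 1 - 1) / 2 = j by omega]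
      nlinarith
  have hgen : ∀ c d : ℕ, (c + d) * (c + d) ≤ 2 * (c * c + d * d) := fun c d => by
    nlinarith [sq_nonneg ((c : ℤ) - d)]
  have hsq := hgen S.card T.card
  rw [hST] at hsq
  omega

open Complex in
/-- A nowhere vanishing function on a simply connected space has a continuous logarithm. -/
theorem exists_log {X : Type*} [TopologicalSpace X] [SimplyConnectedSpace X]
    [LocallyPathConnectedSpace X] (x₀ : X) {f : X → ℂ} (hf : Continuous f) (h0 : ∀ x, f x ≠ 0) :
    ∃ L : X → ℂ, Continuous L ∧ ∀ x, exp (L x) = f x := by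
  obtain ⟨F, ⟨-, hF⟩, -⟩ := isCoveringMapOn_exp.existsUnique_continuousMap_lifts
    (⟨f, hf⟩ : C(X, ℂ)) (exp_log (h0 x₀)) h0
  exact ⟨F, F.continuous, fun x => congrFun hF x⟩

open Complex in
/-- Two logarithms of proportional functions have the same increase. -/
theorem log_diff {L M : ℝ → ℂ} (hL : Continuous L) (hM : Continuous M) (c : ℂ)
    (h : ∀ t, exp (L t) = c * exp (M t)) : L 1 - L 0 = M 1 - M 0 := by
  have hc : exp (L 0 - M 0) = c := by
    rw [exp_sub, h 0, mul_div_cancel_right₀ _ (exp_ne_zero _)]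
  have := isCoveringMap_exp.eq_of_comp_eq hL (hM.add continuous_const)
    (funext fun t => Subtype.ext (show exp (L t) = exp (M t + (L 0 - M 0)) by
      rw [exp_add, hc, h t, mul_comm])) 0 (show L 0 = M 0 + (L 0 - M 0) by ring)
  have h1 : L 1 = M 1 + (L 0 - M 0) := congrFun this 1
  rw [h1]
  ring

/-- A continuous branch of the argument on the closed upper half plane minus the origin. -/
noncomputable def halfArg (w : ℂ) : ℝ := (Complex.log (-Complex.I * w)).im

theorem halfArg_neg {x : ℝ} (h : x < 0) : halfArg (x : ℂ) = Real.pi / 2 := by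
  rw [halfArg, Complex.log_im]
  exact Complex.arg_eq_pi_div_two_iff.2 ⟨by simp, by simp [h]⟩

theorem halfArg_pos {x : ℝ} (h : 0 < x) : halfArg (x : ℂ) = -(Real.pi / 2) := by
  rw [halfArg, Complex.log_im]
  exact Complex.arg_eq_neg_pi_div_two_iff.2 ⟨by simp, by simp [h]⟩

/-- The logarithm branch along a path in the closed upper half plane. -/
theorem continuous_halfLog {p : ℝ → ℂ} (hp : Continuous p) (him : ∀ t, 0 ≤ (p t).im)
    (h0 : ∀ t, p t ≠ 0) : Continuous fun t => Complex.log (-Complex.I * p t) := by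
  refine Continuous.clog (by fun_prop) fun t => ?_
  rw [Complex.mem_slitPlane_iff]
  rcases (him t).lt_or_eq with h | h
  · exact Or.inl (by simpa using h)
  · refine Or.inr ?_
    have : (p t).re ≠ 0 := fun hr => h0 t (Complex.ext hr h.symm)
    simpa using this

open Complex in
/-- The winding relation for two disjoint paths in the half plane leaving two boundary points. -/
theorem winding {g d A B : ℝ → ℂ} {a a' : ℝ} {p q : ℂ} (hg : Continuous g) (hd : Continuous d)
    (hgi : ∀ t, 0 ≤ (g t).im) (hdi : ∀ t, 0 ≤ (d t).im) (hne : ∀ s t, g s ≠ d t) (haa : a < a')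
    (hg0 : g 0 = a) (hg1 : g 1 = p) (hd0 : d 0 = a') (hd1 : d 1 = q)
    (hA : Continuous A) (hAe : ∀ t, exp (A t) = g t - q)
    (hB : Continuous B) (hBe : ∀ t, exp (B t) = d t - p) :
    (A 1 - A 0).im + halfArg (q - a) + Real.pi = (B 1 - B 0).im + halfArg (p - a') := by
  obtain ⟨L, hL, hLe⟩ := exists_log ((0, 0) : ℝ × ℝ) (f := fun x => g x.1 - d x.2)
    (by fun_prop) (fun x => sub_ne_zero.2 (hne _ _))
  have hI : ∀ w : ℂ, I * (-I * w) = w := fun w => by rw [← mul_assoc]; simp
  have bot := log_diff (L := fun s => L (s, 0)) (M := fun s => Complex.log (-I * (g s - a')))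
    (by fun_prop) (continuous_halfLog (by fun_prop) (fun t => by simpa using hgi t)
      (fun t => sub_ne_zero.2 (hd0 ▸ hne t 0))) I
    (fun s => by
      rw [hLe, exp_log (mul_ne_zero (by simp) (sub_ne_zero.2 (hd0 ▸ hne s 0))), hI, hd0])
  have left := log_diff (L := fun t => L (0, t)) (M := fun t => Complex.log (-I * (d t - a)))
    (by fun_prop) (continuous_halfLog (by fun_prop) (fun t => by simpa using hdi t)
      (fun t => sub_ne_zero.2 (hg0 ▸ (hne 0 t).symm))) (-I)
    (fun t => by
      rw [hLe, exp_log (mul_ne_zero (by simp) (sub_ne_zero.2 (hg0 ▸ (hne 0 t).symm))), neg_mul,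
        hI, hg0]
      ring)
  have top := log_diff (L := fun s => L (s, 1)) (M := A) (by fun_prop) hA 1
    (fun s => by rw [hLe, hAe, hd1, one_mul])
  have right := log_diff (L := fun t => L (1, t)) (M := B) (by fun_prop) hB (-1)
    (fun t => by rw [hLe, hBe, hg1]; ring)
  have e1 := congrArg Complex.im bot
  have e2 := congrArg Complex.im left
  have e3 := congrArg Complex.im top
  have e4 := congrArg Complex.im right
  have n1 := halfArg_neg (sub_neg.2 haa)
  have n2 := halfArg_pos (sub_pos.2 haa)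
  simp only [halfArg, ofReal_sub, Complex.sub_im, hg0, hg1, hd0, hd1] at *
  linarith

/-- An interior crossing of two closed arcs. -/
def Cross {p q r s : ℂ} (e : Path p q) (e' : Path r s) : Prop :=
  ∃ u ∈ Set.Ioo (0 : unitInterval) 1, ∃ v ∈ Set.Ioo (0 : unitInterval) 1, e u = e' v

theorem interior_cases (t : unitInterval) : t = 0 ∨ t = 1 ∨ t ∈ Set.Ioo (0 : unitInterval) 1 := by
  rcases (unitInterval.nonneg' (t := t)).lt_or_eq with h | h
  · rcases (unitInterval.le_one' (t := t)).lt_or_eq with h' | h'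
    · exact Or.inr (Or.inr ⟨h, h'⟩)
    · exact Or.inr (Or.inl h')
  · exact Or.inl h.symm

theorem extend_range {p q : ℂ} (e : Path p q) (s : ℝ) : ∃ u, e.extend s = e u :=
  ⟨Set.projIcc 0 1 zero_le_one s, rfl⟩

/-- Two colours for the line class such that equally coloured pairs force a crossing. -/
theorem exists_colour {m : ℕ} {a : Fin m → ℝ} (ha : StrictMono a) {p q : ℂ}
    (g : ∀ i, Path (a i : ℂ) p) (d : ∀ i, Path (a i : ℂ) q)
    (hgi : ∀ i t, 0 ≤ (g i t).im) (hdi : ∀ i t, 0 ≤ (d i t).im)
    (hgq : ∀ i t, g i t ≠ q) (hdp : ∀ i t, d i t ≠ p)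
    (hga : ∀ i i', ∀ t, g i t = a i' → t = 0) (hda : ∀ i i', ∀ t, d i t = a i' → t = 0) :
    ∃ col : Fin m → Bool, ∀ i i', i < i' → col i = col i' →
      Cross (g i) (d i') ∨ Cross (d i) (g i') := by
  classical
  choose A hA hAe using fun i => exists_log (0 : ℝ) (f := fun s => (g i).extend s - q)
    ((g i).continuous_extend.sub continuous_const)
    (fun s => by
      obtain ⟨u, hu⟩ := extend_range (g i) s
      simpa [hu, sub_eq_zero] using hgq i u)
  choose B hB hBe using fun i => exists_log (0 : ℝ) (f := fun s => (d i).extend s - p)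
    ((d i).continuous_extend.sub continuous_const)
    (fun s => by
      obtain ⟨u, hu⟩ := extend_range (d i) s
      simpa [hu, sub_eq_zero] using hdp i u)
  let S : Fin m → ℝ := fun i => ((A i 1 - A i 0).im + halfArg (q - a i) +
    (B i 1 - B i 0).im + halfArg (p - a i)) / (2 * Real.pi)
  refine ⟨fun i => decide (Even ⌊S i⌋), fun i i' hlt hcol => ?_⟩
  by_contra hno
  push Not at hno
  have key : ∀ {u v : ℂ} (x : Path (a i : ℂ) u) (y : Path (a i' : ℂ) v), ¬ Cross x y →
      (∀ t, x t ≠ v) → (∀ t, y t ≠ u) →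
      (∀ k t, x t = a k → t = 0) → (∀ k t, y t = a k → t = 0) →
      ∀ s t, x.extend s ≠ y.extend t := by
    intro u v x y hn hxv hyu hxa hya s t
    obtain ⟨s', hs⟩ := extend_range x s
    obtain ⟨t', ht⟩ := extend_range y t
    rw [hs, ht]
    intro he
    rcases interior_cases s' with rfl | rfl | hs'
    · rw [x.source] at he
      have := hya i t' he.symm
      subst this
      rw [y.source] at he
      exact (ha hlt).ne (by exact_mod_cast he)
    · rw [x.target] at he
      exact hyu t' he.symm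
    · rcases interior_cases t' with rfl | rfl | ht'
      · rw [y.source] at he
        exact hs'.1.ne' (hxa i' s' he)
      · rw [y.target] at he
        exact hxv s' he
      · exact hn ⟨s', hs', t', ht', he⟩
  have him : ∀ {u v : ℂ} (x : Path u v), (∀ t, 0 ≤ (x t).im) → ∀ s, 0 ≤ (x.extend s).im :=
    fun x hx s => by
      obtain ⟨w, hw⟩ := extend_range x s
      rw [hw]
      exact hx w
  have e1 := winding (g i).continuous_extend (d i').continuous_extend (him _ (hgi i))
    (him _ (hdi i'))
    (key (g i) (d i') hno.1 (hgq i) (hdp i') (hga i) (hda i')) (ha hlt)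
    (g i).extend_zero (g i).extend_one (d i').extend_zero (d i').extend_one
    (hA i) (hAe i) (hB i') (hBe i')
  have e2 := winding (d i).continuous_extend (g i').continuous_extend (him _ (hdi i))
    (him _ (hgi i'))
    (key (d i) (g i') hno.2 (hdp i) (hgq i') (hda i) (hga i')) (ha hlt)
    (d i).extend_zero (d i).extend_one (g i').extend_zero (g i').extend_one
    (hB i) (hBe i) (hA i') (hAe i')
  have hS : S i' = S i + 1 := by
    simp only [S]
    rw [div_add_one (by positivity)]
    congr 1
    linarith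
  simp only [hS, Int.floor_add_one, decide_eq_decide, Int.even_add_one] at hcol
  tauto

theorem zarankiewicz_side {m n : ℕ} (a : Fin m → ℝ) (b : Fin n → ℂ) (ha : StrictMono a)
    (hb : Function.Injective b) (hab : ∀ i j, b j ≠ a i)
    (e : ∀ i j, Path (a i : ℂ) (b j))
    (hside : ∀ j, (∀ i t, 0 ≤ (e i j t).im) ∨ ∀ i t, (e i j t).im ≤ 0)
    (hA : ∀ i j i', ∀ t ∈ Set.Ioo (0 : unitInterval) 1, e i j t ≠ a i')
    (hB : ∀ i j j', ∀ t ∈ Set.Ioo (0 : unitInterval) 1, e i j t ≠ b j') :
    m / 2 * ((m - 1) / 2) * (n / 2 * ((n - 1) / 2)) ≤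
      {q : (Fin m × Fin m) × Fin n × Fin n | q.1.1 < q.1.2 ∧ q.2.1 ≠ q.2.2 ∧
        Cross (e q.1.1 q.2.1) (e q.1.2 q.2.2)}.ncard := by
  classical
  let up : Fin n → Bool := fun j => decide (∀ i t, 0 ≤ (e i j t).im)
  let Pn := univ.filter fun p : Fin n × Fin n => p.1 < p.2 ∧ up p.1 = up p.2
  have hPn : n / 2 * ((n - 1) / 2) ≤ Pn.card :=
    pairs (fun x y : Fin n => x < y) (fun x => lt_irrefl x) (fun x y h => h.asymm)
      (fun x y h => lt_or_gt_of_ne h) up
  have hq : ∀ i j j', j ≠ j' → ∀ t, e i j t ≠ b j' := fun i j j' hne t => by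
    rcases interior_cases t with rfl | rfl | h
    · rw [(e i j).source]; exact (hab i j').symm
    · rw [(e i j).target]; exact hb.ne hne
    · exact hB i j j' t h
  have ha' : ∀ i j i' t, e i j t = a i' → t = 0 := fun i j i' t h => by
    rcases interior_cases t with rfl | rfl | h'
    · rfl
    · rw [(e i j).target] at h; exact absurd h (hab i' j)
    · exact absurd h (hA i j i' t h')
  have hcol : ∀ p : Fin n × Fin n, ∃ col : Fin m → Bool, p ∈ Pn → ∀ i i', i < i' →
      col i = col i' → Cross (e i p.1) (e i' p.2) ∨ Cross (e i p.2) (e i' p.1) := by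
    rintro ⟨j, j'⟩
    by_cases hp : (j, j') ∈ Pn
    swap
    · exact ⟨fun _ => true, fun h => absurd h hp⟩
    simp only [Pn, mem_filter, mem_univ, true_and] at hp
    obtain ⟨hlt, hsame⟩ := hp
    by_cases hu : up j = true
    · have hu' : up j' = true := hsame ▸ hu
      simp only [up, decide_eq_true_eq] at hu hu'
      obtain ⟨c, hc⟩ := exists_colour ha (fun i => e i j) (fun i => e i j') hu hu'
        (fun i => hq i j j' hlt.ne) (fun i => hq i j' j hlt.ne') (fun i => ha' i j)
        (fun i => ha' i j')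
      exact ⟨c, fun _ => hc⟩
    · have hu' : ¬ up j' = true := hsame ▸ hu
      simp only [up, decide_eq_true_eq] at hu hu'
      let ec : ∀ i k, Path (a i : ℂ) (starRingEnd ℂ (b k)) := fun i k =>
        ((e i k).map Complex.continuous_conj).cast (Complex.conj_ofReal (a i)).symm rfl
      have heq : ∀ i k t, ec i k t = starRingEnd ℂ (e i k t) := fun i k t => rfl
      have hlow : ∀ k, (¬ ∀ i t, 0 ≤ (e i k t).im) → ∀ i t, 0 ≤ (ec i k t).im := fun k hk i t => by
        rw [heq, Complex.conj_im, neg_nonneg]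
        exact (hside k).resolve_left hk i t
      obtain ⟨c, hc⟩ := exists_colour ha (fun i => ec i j) (fun i => ec i j') (hlow j hu)
        (hlow j' hu')
        (fun i t h => hq i j j' hlt.ne t ((starRingEnd ℂ).injective h))
        (fun i t h => hq i j' j hlt.ne' t ((starRingEnd ℂ).injective h))
        (fun i i' t h => ha' i j i' t ((starRingEnd ℂ).injective
          (h.trans (Complex.conj_ofReal (a i')).symm)))
        (fun i i' t h => ha' i j' i' t ((starRingEnd ℂ).injective
          (h.trans (Complex.conj_ofReal (a i')).symm)))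
      exact ⟨c, fun _ i i' h1 h2 => (hc i i' h1 h2).imp
        (fun ⟨u, hu, v, hv, h⟩ => ⟨u, hu, v, hv, (starRingEnd ℂ).injective h⟩)
        (fun ⟨u, hu, v, hv, h⟩ => ⟨u, hu, v, hv, (starRingEnd ℂ).injective h⟩)⟩
  choose col hc using hcol
  let Q : Fin n × Fin n → Finset (Fin m × Fin m) := fun p =>
    univ.filter fun z => z.1 < z.2 ∧ col p z.1 = col p z.2
  have hQ : ∀ p, m / 2 * ((m - 1) / 2) ≤ (Q p).card := fun p =>
    pairs (fun x y : Fin m => x < y) (fun x => lt_irrefl x) (fun x y h => h.asymm)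
      (fun x y h => lt_or_gt_of_ne h) (col p)
  have hcard : m / 2 * ((m - 1) / 2) * (n / 2 * ((n - 1) / 2)) ≤ (Pn.sigma Q).card := by
    rw [card_sigma]
    calc m / 2 * ((m - 1) / 2) * (n / 2 * ((n - 1) / 2))
        ≤ m / 2 * ((m - 1) / 2) * Pn.card := Nat.mul_le_mul_left _ hPn
      _ = ∑ _p ∈ Pn, m / 2 * ((m - 1) / 2) := by rw [sum_const, smul_eq_mul, mul_comm]
      _ ≤ _ := sum_le_sum fun p _ => hQ p
  refine hcard.trans ?_
  rw [← Set.ncard_coe_finset]
  refine Set.ncard_le_ncard_of_injOn (fun s =>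
    (s.2, if Cross (e s.2.1 s.1.1) (e s.2.2 s.1.2) then s.1 else (s.1.2, s.1.1))) ?_ ?_
    (Set.toFinite _)
  · rintro ⟨⟨j, j'⟩, i, i'⟩ hs
    simp only [mem_coe, mem_sigma, Q, mem_filter, mem_univ, true_and] at hs
    obtain ⟨hp, hlt, hcl⟩ := hs
    have hjj : j < j' := (mem_filter.1 hp).2.1
    have h := hc (j, j') hp i i' hlt hcl
    simp only [Set.mem_ofPred_eq]
    refine ⟨hlt, ?_⟩
    by_cases hx : Cross (e i j) (e i' j')
    · rw [if_pos hx]
      exact ⟨hjj.ne, hx⟩
    · rw [if_neg hx]
      exact ⟨hjj.ne', h.resolve_left hx⟩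
  · rintro ⟨p, z⟩ hs ⟨p', z'⟩ hs' he
    simp only [mem_coe, mem_sigma, Pn, mem_filter, mem_univ, true_and] at hs hs'
    simp only [Prod.mk.injEq] at he
    obtain ⟨rfl, he⟩ := he
    obtain ⟨p1, p2⟩ := p
    obtain ⟨q1, q2⟩ := p'
    split_ifs at he <;> simp only [Prod.mk.injEq] at he <;> obtain ⟨rfl, rfl⟩ := he
    all_goals first
      | rfl
      | exact absurd hs'.1.1 hs.1.1.asymm

end Vale.Agent.P040
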